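import Vale.Agent.Lib.P090K.Final

namespace Vale.Agent.Results.P090.A_kalton

open Vale.Agent.Lib.P090

/-- There is a countable metric space with all distinct points at distance at least `1` whose
Lipschitz-free space fails the `lam`-bounded approximation property for every real `lam`. -/
theorem result :
    ∃ (M : Type) (_ : MetricSpace M) (o : M), Countable M ∧ (∀ x y : M, x ≠ y → 1 ≤ dist x y) ∧
      ∀ lam : ℝ, ¬ HasBAP (freeSpace M o) lam :=
  Vale.Agent.Lib.P090K.kalton_negative

end Vale.Agent.Results.P090.A_kalton
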