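import Vale.Agent.Lib.P090.Bridge

namespace Vale.Agent.Results.P090.A_main

open Vale.Agent.Lib.P090

/-- There is a countable metric space whose nonzero distances lie in `[1, 2]` whose
Lipschitz-free space fails the metric approximation property, and even the
`(1 + 5e-8)`-bounded approximation property. -/
theorem result :
    ∃ (M : Type) (_ : MetricSpace M) (o : M), Countable M ∧
      (∀ x y : M, x ≠ y → 1 ≤ dist x y) ∧ (∀ x y : M, dist x y ≤ 2) ∧
      ¬ HasBAP (freeSpace M o) 1 ∧ ¬ HasBAP (freeSpace M o) (1 + 1 / 20000000) :=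
  ⟨Vtx, inferInstance, Vtx.base, inferInstance, fun _ _ h => dist_ge_one h, dist_le_two,
    fun h => vtx_not_bap (hasBAP_freeSpace (HasBAP.mono (by norm_num) h)),
    fun h => vtx_not_bap (hasBAP_freeSpace h)⟩

end Vale.Agent.Results.P090.A_main
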